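import Mathlib
import Vale.Agent.Lib.P015.AnyLine
import Vale.Agent.Lib.P015.Disks

namespace Vale.Agent.Results.P015.AnyLine

open Vale.Agent.Lib.P015

/-- Let `{p + t * e : t ∈ ℝ}` be any straight line of the complex plane (any point `p`, any
direction `e ≠ 0`, rational or irrational slope).

First part: for every radius `R` and every `T` there is a parameter `t ≥ T` such that the closed
disk of radius `R` centred at the point `p + t * e` of the line contains no Gaussian prime; so
the line carries centres of disks of arbitrarily large radius free of Gaussian primes,
arbitrarily far out (apply the statement to `-e` for the other direction).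

Second part: if `z 0, z 1, z 2, ...` are pairwise distinct Gaussian primes with all steps of
length at most `D` (`Zsqrtd.norm` is the squared length), then for every bound `K` infinitely
many `z n` lie at distance more than `K` from the line: the walk does not stay within a bounded
distance of the line. -/
theorem result (p e : ℂ) (he : e ≠ 0) :
    (∀ R T : ℝ, ∃ t : ℝ, T ≤ t ∧
      ∀ z : GaussianInt, ‖GaussianInt.toComplex z - (p + t * e)‖ ≤ R → ¬ Prime z) ∧
    (∀ (K : ℝ) (D : ℕ) (z : ℕ → GaussianInt), (∀ n, Prime (z n)) → Function.Injective z →
      (∀ n, (z (n + 1) - z n).norm ≤ (D : ℤ) ^ 2) →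
      ∀ N : ℕ, ∃ n, N ≤ n ∧ ∀ t : ℝ, K < ‖GaussianInt.toComplex (z n) - (p + t * e)‖) := by
  refine ⟨fun R T => exists_disk p e he R T, ?_⟩
  intro K D z hz hinj hstep N
  by_contra hcon
  push Not at hcon
  refine no_walk_line p e K D (fun n => z (N + n)) (fun n => hz _)
    (fun a b hab => by have := hinj hab; omega) (fun n => ?_)
    (fun n => hcon (N + n) (by omega))
  have := hstep (N + n)
  rwa [add_assoc] at this

end Vale.Agent.Results.P015.AnyLine
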