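import Mathlib
import Vale.Agent.Lib.P015.KingMain

namespace Vale.Agent.Results.P015.KingWalk

open Vale.Agent.Lib.P015

/-- For every Gaussian integer `d` coprime to `672945 = 3 * 5 * 7 * 13 * 17 * 29`, there is no
infinite sequence of pairwise distinct Gaussian primes in which every difference of successive
terms is `d * u` for some Gaussian integer `u` with `|re u| ≤ 1` and `|im u| ≤ 1` (a king step
scaled and rotated by `d`).  With `d = 1 + i` the allowed steps are those of length `√2` and
`2`; with `d = 2` they are the steps of length `2` and `√8`. -/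
theorem result (d : GaussianInt) (hd : IsCoprime d 672945) (z : ℕ → GaussianInt)
    (hz : ∀ n, Prime (z n)) (hinj : Function.Injective z) :
    ¬ ∀ n, ∃ u : GaussianInt, |u.re| ≤ 1 ∧ |u.im| ≤ 1 ∧ z (n + 1) - z n = d * u :=
  king_walk d hd z hz hinj

end Vale.Agent.Results.P015.KingWalk
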