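import Mathlib
import Vale.Agent.Lib.P015.AnyLine
import Vale.Agent.Lib.P015.Disks
import Vale.Agent.Lib.P015.KingMain
import Vale.Agent.Lib.P015.Sqrt8
import Vale.Agent.Lib.P015.Count41

namespace Vale.Agent.Results.P015.Omnibus

open Vale.Agent.Lib.P015

/-- Four restrictions on infinite walks through the Gaussian primes (`Zsqrtd.norm` is the
squared length of a Gaussian integer).

First part (every line).  Let `{p + t * e : t ∈ ℝ}` be any straight line of the complex plane
(`e ≠ 0`).  For every radius `R` and every `T` there is `t ≥ T` such that the closed disk of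
radius `R` centred at `p + t * e` contains no Gaussian prime; and if `z 0, z 1, ...` are
pairwise distinct Gaussian primes with all steps of length at most `D`, then for every `K`
infinitely many `z n` lie at distance more than `K` from the line.

Second part (scaled king steps).  For every Gaussian integer `d` coprime to
`672945 = 3 * 5 * 7 * 13 * 17 * 29` there is no infinite sequence of pairwise distinct Gaussian
primes in which every difference of successive terms is `d * u` with `|re u| ≤ 1`, `|im u| ≤ 1`.

Third part (steps at most `√8`).  In every infinite sequence of pairwise distinct Gaussian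
primes with all steps of length at most `√8`, infinitely many steps have length exactly `√2`
and infinitely many have length exactly `√8`.

Fourth part (thin regions).  If `z 0, z 1, ...` are pairwise distinct Gaussian primes with all
steps of length at most `D` and `P k` is the product of the `k` smallest primes congruent to
`1` modulo `4`, then `|Re (z n)| < P ((D + 1) * (2 * |Im (z n)| + 1))` for infinitely many `n`
and `log₂ |Re (z n)| < |Im (z n)| ^ 4` for infinitely many `n` (`Nat.log 2 x` is the integer
part of `log₂ x`, and `Nat.log 2 0 = 0`). -/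
theorem result :
    (∀ p e : ℂ, e ≠ 0 →
      (∀ R T : ℝ, ∃ t : ℝ, T ≤ t ∧
        ∀ z : GaussianInt, ‖GaussianInt.toComplex z - (p + t * e)‖ ≤ R → ¬ Prime z) ∧
      (∀ (K : ℝ) (D : ℕ) (z : ℕ → GaussianInt), (∀ n, Prime (z n)) → Function.Injective z →
        (∀ n, (z (n + 1) - z n).norm ≤ (D : ℤ) ^ 2) →
        ∀ N : ℕ, ∃ n, N ≤ n ∧ ∀ t : ℝ, K < ‖GaussianInt.toComplex (z n) - (p + t * e)‖)) ∧
    (∀ d : GaussianInt, IsCoprime d 672945 → ∀ z : ℕ → GaussianInt,
      (∀ n, Prime (z n)) → Function.Injective z →
      ¬ ∀ n, ∃ u : GaussianInt, |u.re| ≤ 1 ∧ |u.im| ≤ 1 ∧ z (n + 1) - z n = d * u) ∧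
    (∀ z : ℕ → GaussianInt, (∀ n, Prime (z n)) → Function.Injective z →
      (∀ n, (z (n + 1) - z n).norm ≤ 8) →
      (∀ N, ∃ n, N ≤ n ∧ (z (n + 1) - z n).norm = 2) ∧
      (∀ N, ∃ n, N ≤ n ∧ (z (n + 1) - z n).norm = 8)) ∧
    (∀ (D : ℕ) (z : ℕ → GaussianInt), (∀ n, Prime (z n)) → Function.Injective z →
      (∀ n, (z (n + 1) - z n).norm ≤ (D : ℤ) ^ 2) →
      (∀ N, ∃ n, N ≤ n ∧ (z n).re.natAbs <
        ∏ i ∈ Finset.range ((D + 1) * (2 * (z n).im.natAbs + 1)),
          Nat.nth (fun p => p.Prime ∧ p % 4 = 1) i) ∧
      (∀ N, ∃ n, N ≤ n ∧ Nat.log 2 (z n).re.natAbs < (z n).im.natAbs ^ 4)) := by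
  refine ⟨?_, ?_, ?_, ?_⟩
  · intro p e he
    refine ⟨fun R T => exists_disk p e he R T, ?_⟩
    intro K D z hz hinj hstep N
    by_contra hcon
    push Not at hcon
    refine no_walk_line p e K D (fun n => z (N + n)) (fun n => hz _)
      (fun a b hab => by have := hinj hab; omega) (fun n => ?_)
      (fun n => hcon (N + n) (by omega))
    have := hstep (N + n)
    rwa [add_assoc] at this
  · intro d hd z hz hinj
    exact king_walk d hd z hz hinj
  · intro z hz hinj hstep
    exact sqrt8_walk z hz hinj hstep
  · intro D z hz hinj hstep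
    constructor
    · intro N
      by_contra hcon
      push Not at hcon
      refine no_walk_primorial D (fun n => z (N + n)) (fun n => hz _)
        (fun a b hab => by have := hinj hab; omega) (fun n => ?_) (fun n => ?_)
      · have := hstep (N + n)
        rwa [add_assoc] at this
      · have h := hcon (N + n) (by omega)
        rw [Int.abs_eq_natAbs]
        exact_mod_cast h
    · intro N
      by_contra hcon
      push Not at hcon
      refine no_walk_log D (fun n => z (N + n)) (fun n => hz _)
        (fun a b hab => by have := hinj hab; omega) (fun n => ?_)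
        (fun n => hcon (N + n) (by omega))
      have := hstep (N + n)
      rwa [add_assoc] at this

end Vale.Agent.Results.P015.Omnibus
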