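import Mathlib
import Vale.Agent.Lib.P015.Count41

namespace Vale.Agent.Results.P015.ThinRegion

open Vale.Agent.Lib.P015

/-- Let `z 0, z 1, z 2, ...` be pairwise distinct Gaussian primes with all steps of length at
most `D` (`Zsqrtd.norm` is the squared length), and let `P k` be the product of the `k`
smallest primes congruent to `1` modulo `4`.  Then

* `|Re (z n)| < P ((D + 1) * (2 * |Im (z n)| + 1))` for infinitely many `n`, and
* `log₂ |Re (z n)| < |Im (z n)| ^ 4` for infinitely many `n` (`Nat.log 2 x` is the integer part
  of `log₂ x`, and `Nat.log 2 0 = 0`).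

So the walk cannot stay, from some index on, in the region
`P ((D + 1) * (2 * |Im z| + 1)) ≤ |Re z|`, nor in the region `|Im z| ^ 4 ≤ log₂ |Re z|`;
both regions surround the real axis and have unbounded width. -/
theorem result (D : ℕ) (z : ℕ → GaussianInt) (hz : ∀ n, Prime (z n))
    (hinj : Function.Injective z) (hstep : ∀ n, (z (n + 1) - z n).norm ≤ (D : ℤ) ^ 2) :
    (∀ N, ∃ n, N ≤ n ∧ (z n).re.natAbs <
      ∏ i ∈ Finset.range ((D + 1) * (2 * (z n).im.natAbs + 1)),
        Nat.nth (fun p => p.Prime ∧ p % 4 = 1) i) ∧
    (∀ N, ∃ n, N ≤ n ∧ Nat.log 2 (z n).re.natAbs < (z n).im.natAbs ^ 4) := by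
  constructor
  · intro N
    by_contra hcon
    push Not at hcon
    refine no_walk_primorial D (fun n => z (N + n)) (fun n => hz _)
      (fun a b hab => by have := hinj hab; omega) (fun n => ?_) (fun n => ?_)
    · have := hstep (N + n)
      rwa [add_assoc] at this
    · have h := hcon (N + n) (by omega)
      rw [Int.abs_eq_natAbs]
      exact_mod_cast h
  · intro N
    by_contra hcon
    push Not at hcon
    refine no_walk_log D (fun n => z (N + n)) (fun n => hz _)
      (fun a b hab => by have := hinj hab; omega) (fun n => ?_)
      (fun n => hcon (N + n) (by omega))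
    have := hstep (N + n)
    rwa [add_assoc] at this

end Vale.Agent.Results.P015.ThinRegion
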